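import Vale.Agent.P011.D4Y.H657.Conj
import Vale.Agent.P011.D4Y.H862.Bas
import Vale.Agent.P011.D4Y.H68.Nf
import Vale.Agent.P011.D4X.H493.Star

/-!
Anisotropy of the noncyclic trialitarian model.
-/

open Complex

set_option linter.unusedSectionVars false

namespace Vale.Agent.P011.NT

open Vale.Agent.P011.MPQ Vale.Agent.P011.D4 Vale.Agent.P011.D4.Oct Vale.Agent.P011.E6
  Vale.Agent.P011.D4X Vale.Agent.P011.D4Y

theorem z8 {p : Fin 8 → ℝ} {x : Fin 8 → ℂ} (hp : ∀ i, 0 < p i)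
    (h : ∑ i, p i * normSq (x i) = 0) (i : Fin 8) : x i = 0 := by
  have h1 := (Finset.sum_eq_zero_iff_of_nonneg fun i _ =>
    mul_nonneg (hp i).le (normSq_nonneg (x i))).1 h i (Finset.mem_univ i)
  exact normSq_eq_zero.1 ((mul_eq_zero.1 h1).resolve_left (hp i).ne')

variable {k L E : Type} [Field k] [Field L] [Field E] [Algebra k L] [Algebra k E] [Algebra L E]
  [IsScalarTower k L E] [NeZero (2 : E)] {ρ σ ι : E ≃ₐ[k] E} {α : E} {a b c : kˣ} {q : Lˣ}

/-- The Peirce coordinates. -/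
def pc (α : E) (v : OctL E a b c) : Fin 8 → E :=
  ![v.fst.re + v.fst.imI * α, v.fst.re - v.fst.imI * α, v.fst.imJ + v.fst.imK * α,
    v.fst.imJ - v.fst.imK * α, v.snd.re + v.snd.imI * α, v.snd.re - v.snd.imI * α,
    v.snd.imJ + v.snd.imK * α, v.snd.imJ - v.snd.imK * α]

theorem pc_sub (s t : E) (x y : OctL E a b c) (i : Fin 8) :
    pc α (s • x - t • y) i = s * pc α x i - t * pc α y i := by
  fin_cases i <;> simp [pc] <;> ring

variable (H : HyI ρ σ ι α a b c q)

include H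

theorem pc_zero {v : OctL E a b c} (h : ∀ i, pc α v i = 0) : v = 0 := by
  have hα := H.al0
  have key : ∀ x y : E, x + y * α = 0 → x - y * α = 0 → x = 0 ∧ y = 0 := by
    intro x y h1 h2
    have hx : x = 0 := mul_left_cancel₀ (NeZero.ne (2 : E)) (by linear_combination h1 + h2)
    rw [hx, zero_add] at h1
    exact ⟨hx, (mul_eq_zero.1 h1).resolve_right hα⟩
  obtain ⟨k1, k2⟩ := key _ _ (h 0) (h 1)
  obtain ⟨k3, k4⟩ := key _ _ (h 2) (h 3)
  obtain ⟨k5, k6⟩ := key _ _ (h 4) (h 5)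
  obtain ⟨k7, k8⟩ := key _ _ (h 6) (h 7)
  exact ext8 k1 k2 k3 k4 k5 k6 k7 k8

theorem bil_pc (x y : OctL E a b c) : bil x y =
    pc α x 0 * pc α y 1 + pc α x 1 * pc α y 0 -
      algebraMap k E b * (pc α x 2 * pc α y 3 + pc α x 3 * pc α y 2) -
      algebraMap k E c * (pc α x 4 * pc α y 5 + pc α x 5 * pc α y 4 -
        algebraMap k E b * (pc α x 6 * pc α y 7 + pc α x 7 * pc α y 6)) := by
  have ha : ((up E a : Eˣ) : E) = α * α := by rw [H.α2]; rfl
  have hb : algebraMap k E b = ((up E b : Eˣ) : E) := rfl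
  have hc : algebraMap k E c = ((up E c : Eˣ) : E) := rfl
  rw [hb, hc, bil_eq]
  simp only [pc, Matrix.cons_val, ha]
  ring

theorem pc_J (x : OctL E a b c) : pc α (Jm ρ σ α q x) =
    ![algebraMap L E q * (algebraMap L E q * ρ (algebraMap L E q)) * σ (pc α x 1), σ (pc α x 0),
      algebraMap L E q * σ (pc α x 3), algebraMap L E q * ρ (algebraMap L E q) * σ (pc α x 2),
      algebraMap L E q * σ (pc α x 5), algebraMap L E q * ρ (algebraMap L E q) * σ (pc α x 4),
      algebraMap L E q * ρ (algebraMap L E q) * σ (pc α x 7), algebraMap L E q * σ (pc α x 6)] := by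
  have hα := H.al0
  have h2 : (2 : E) ≠ 0 := NeZero.ne 2
  have ha : ((up E a : Eˣ) : E) = α * α := by rw [H.α2]; rfl
  funext i
  fin_cases i <;>
    simp only [pc, Jm, mq, Matrix.cons_val, Fin.reduceFinMk, Fin.zero_eta, Fin.mk_one, map_add,
      map_sub, map_mul, H.σα, QuaternionAlgebra.re_mul,
      QuaternionAlgebra.imI_mul, QuaternionAlgebra.imJ_mul, QuaternionAlgebra.imK_mul, re_qmap,
      imI_qmap, imJ_qmap, imK_qmap, QuaternionAlgebra.re_star, QuaternionAlgebra.imI_star,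
      QuaternionAlgebra.imJ_star, QuaternionAlgebra.imK_star, ha] <;>
    field_simp <;> ring

theorem pc_I (x : OctL E a b c) : pc α (Im ι x) =
    ![ι (pc α x 1), ι (pc α x 0), -ι (pc α x 2), -ι (pc α x 3), -ι (pc α x 4), -ι (pc α x 5),
      -ι (pc α x 6), -ι (pc α x 7)] := by
  funext i
  fin_cases i <;> simp [pc, Im, omap, H.ια] <;> ring

theorem pc_tri (x y : OctL E a b c) :
    pc α (tri ρ x y) 0 = ρ (pc α x 1) * ρ (ρ (pc α y 1)) +
      algebraMap k E b * (ρ (pc α x 2) * ρ (ρ (pc α y 3))) +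
      algebraMap k E c * (ρ (pc α x 4) * ρ (ρ (pc α y 5)) -
        algebraMap k E b * (ρ (pc α x 7) * ρ (ρ (pc α y 6)))) ∧
    pc α (tri ρ x y) 1 = ρ (pc α x 0) * ρ (ρ (pc α y 0)) +
      algebraMap k E b * (ρ (pc α x 3) * ρ (ρ (pc α y 2))) +
      algebraMap k E c * (ρ (pc α x 5) * ρ (ρ (pc α y 4)) -
        algebraMap k E b * (ρ (pc α x 6) * ρ (ρ (pc α y 7)))) := by
  have ha : algebraMap k E a = α * α := H.α2.symm
  constructor <;> simp [pc, tri, omap, H.ρα, ha] <;> simp only [Algebra.smul_def] <;> ring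

/-- The semilinear map `J ∘ I`. -/
theorem pc_kap (x : OctL E a b c) : pc α (Jm ρ σ α q (Im ι x)) =
    ![algebraMap L E q * (algebraMap L E q * ρ (algebraMap L E q)) * σ (ι (pc α x 0)),
      σ (ι (pc α x 1)), -(algebraMap L E q * σ (ι (pc α x 3))),
      -(algebraMap L E q * ρ (algebraMap L E q) * σ (ι (pc α x 2))),
      -(algebraMap L E q * σ (ι (pc α x 5))),
      -(algebraMap L E q * ρ (algebraMap L E q) * σ (ι (pc α x 4))),
      -(algebraMap L E q * ρ (algebraMap L E q) * σ (ι (pc α x 7))),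
      -(algebraMap L E q * σ (ι (pc α x 6)))] := by
  rw [pc_J H, pc_I H]
  simp only [Matrix.cons_val, map_neg, mul_neg]

theorem case_J {W : E →+* ℂ} (hW : ∀ y, W (σ y) = (starRingEnd ℂ) (W y)) {r s β γ : ℝ}
    (hr : 0 < r) (hs : 0 < s) (hβ : β < 0) (hγ : γ < 0) (e1 : W (algebraMap L E q) = r)
    (e2 : W (ρ (algebraMap L E q)) = s) (e3 : W (algebraMap k E b) = β)
    (e4 : W (algebraMap k E c) = γ) {v : OctL E a b c} (h : bil v (Jm ρ σ α q v) = 0) : v = 0 := by
  have h1 := congrArg W h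
  rw [bil_pc H, pc_J H] at h1
  simp only [Matrix.cons_val, map_add, map_sub, map_mul, hW, e1, e2, e3, e4, map_zero] at h1
  have hb := neg_pos.2 hβ
  have hc := neg_pos.2 hγ
  refine pc_zero H fun i => (map_eq_zero W).1 (z8 (p := ![1, r * (r * s), -β * (r * s), -β * r,
    -γ * (r * s), -γ * r, -β * -γ * r, -β * -γ * (r * s)]) (x := fun i => W (pc α v i))
    (fun i => by fin_cases i <;> simp only [Matrix.cons_val, Fin.reduceFinMk, Fin.zero_eta,
      Fin.mk_one] <;> positivity) ?_ i)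
  apply ofReal_injective
  simp only [Fin.sum_univ_eight, Matrix.cons_val]
  push_cast
  simp only [← mul_conj]
  linear_combination h1

section two

variable {φ : E →+* ℂ} (hφ : ∀ y, φ (σ (ι y)) = (starRingEnd ℂ) (φ y)) {s β γ : ℝ}
  (hs : 0 < s) (hβ : β < 0) (hγ : γ < 0) (e2 : φ (ρ (algebraMap L E q)) = s)
  (e3 : φ (algebraMap k E b) = β) (e4 : φ (algebraMap k E c) = γ)

include hφ hs hβ hγ e2 e3 e4

theorem line {y : OctL E a b c} (h0 : pc α y 0 = 0) (h : bil y (Jm ρ σ α q (Im ι y)) = 0)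
    (i : Fin 8) (hi : i ≠ 1) : pc α y i = 0 := by
  have h1 := congrArg φ h
  rw [bil_pc H, pc_kap H] at h1
  simp only [Matrix.cons_val, map_add, map_sub, map_mul, map_neg, hφ, e2, e3, e4, map_zero,
    h0] at h1
  have hb := neg_pos.2 hβ
  have hc := neg_pos.2 hγ
  have hz : φ (algebraMap L E q) ≠ 0 := (map_ne_zero φ).2 H.q_ne
  have := z8 (p := ![1, 1, -β * s, -β, -γ * s, -γ, -β * -γ, -β * -γ * s])
    (x := fun i => if i = 1 then 0 else φ (pc α y i))
    (fun i => by fin_cases i <;> simp only [Matrix.cons_val, Fin.reduceFinMk, Fin.zero_eta,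
      Fin.mk_one] <;> positivity) (by
      apply ofReal_injective
      apply mul_left_cancel₀ hz
      simp only [Fin.sum_univ_eight, Matrix.cons_val, Fin.reduceEq, if_false, if_true, h0,
        map_zero]
      push_cast
      simp only [← mul_conj]
      linear_combination -h1) i
  rw [if_neg hi] at this
  exact (map_eq_zero φ).1 this

theorem dep {w u : OctL E a b c} (hw : w ≠ 0) (h11 : bil w (Jm ρ σ α q (Im ι w)) = 0)
    (h12 : bil w (Jm ρ σ α q (Im ι u)) = 0) (h21 : bil u (Jm ρ σ α q (Im ι w)) = 0)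
    (h22 : bil u (Jm ρ σ α q (Im ι u)) = 0) : ∃ t : E, u = t • w := by
  have key : ∀ {x y : OctL E a b c}, (∀ i, i ≠ 1 → pc α y i = 0) →
      bil x (Jm ρ σ α q (Im ι y)) = pc α x 0 * σ (ι (pc α y 1)) := by
    intro x y hy
    rw [bil_pc H, pc_kap H]
    simp only [Matrix.cons_val, hy 0 (by decide), hy 2 (by decide), hy 3 (by decide),
      hy 4 (by decide), hy 5 (by decide), hy 6 (by decide), hy 7 (by decide), map_zero]
    ring
  have lin : ∀ (x : OctL E a b c) (s t : E), bil x (Jm ρ σ α q (Im ι (s • u - t • w))) =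
      σ (ι s) * bil x (Jm ρ σ α q (Im ι u)) - σ (ι t) * bil x (Jm ρ σ α q (Im ι w)) := by
    intro x s t
    rw [sub_eq_add_neg, ← neg_smul, Im_add, Im_smul, Im_smul, H.Jm_add, H.Jm_smul, H.Jm_smul,
      bil_add_right, bil_smul_right, bil_smul_right, map_neg, map_neg]
    ring
  have fin : ∀ {s t : E}, s ≠ 0 → s • u - t • w = 0 → ∃ t : E, u = t • w := by
    intro s t hs h
    refine ⟨s⁻¹ * t, ?_⟩
    rw [mul_smul, ← sub_eq_zero.1 h, smul_smul, inv_mul_cancel₀ hs, one_smul]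
  by_cases h0 : pc α w 0 = 0
  · have a1 := line H hφ hs hβ hγ e2 e3 e4 h0 h11
    have a2 : pc α w 1 ≠ 0 := fun h => hw (pc_zero H fun i => by
      by_cases hi : i = 1
      · rw [hi, h]
      · exact a1 i hi)
    rw [key a1] at h21
    have a3 := line H hφ hs hβ hγ e2 e3 e4 ((mul_eq_zero.1 h21).resolve_right
      ((map_ne_zero σ).2 ((map_ne_zero ι).2 a2))) h22
    refine fin a2 (t := pc α u 1) (pc_zero H fun i => ?_)
    rw [pc_sub]
    by_cases hi : i = 1
    · rw [hi]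
      ring
    · rw [a1 i hi, a3 i hi]
      ring
  · have a1 := line H hφ hs hβ hγ e2 e3 e4 (y := pc α w 0 • u - pc α u 0 • w)
      (by rw [pc_sub]; ring) (by
        rw [bil_sub_left, bil_smul_left, bil_smul_left, lin, lin, h11, h12, h21, h22]
        ring)
    have a2 := key (x := w) a1
    rw [lin, h11, h12, mul_zero, mul_zero, sub_zero] at a2
    have a3 := (map_eq_zero ι).1 ((map_eq_zero σ).1 ((mul_eq_zero.1 a2.symm).resolve_left h0))
    refine fin h0 (t := pc α u 0) (pc_zero H fun i => ?_)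
    by_cases hi : i = 1
    · rw [hi, a3]
    · exact a1 i hi

theorem tri_ne {v : OctL E a b c} (h : tri ρ v (Jm ρ σ α q (Im ι v)) = 0) : v = 0 := by
  obtain ⟨h1, h2⟩ := pc_tri H v (Jm ρ σ α q (Im ι v))
  have e0 : ∀ i, pc α (0 : OctL E a b c) i = 0 := fun i => by fin_cases i <;> simp [pc]
  rw [h, e0, pc_kap H] at h1 h2
  have g1 : ∀ y, φ (ρ (ρ (σ (ι y)))) = (starRingEnd ℂ) (φ (ρ y)) := fun y => by
    rw [← hφ, H.ιρ, H.comm, H.comm]
  have g2 : φ (ρ (ρ (algebraMap L E q))) = (starRingEnd ℂ) (φ (algebraMap L E q)) := by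
    rw [← hφ, H.ιL, H.σρρL]
  have hz : φ (algebraMap L E q) ≠ 0 := (map_ne_zero φ).2 H.q_ne
  have hz' : (starRingEnd ℂ) (φ (algebraMap L E q)) ≠ 0 := (map_ne_zero _).2 hz
  have hn := normSq_pos.2 hz
  replace h1 := congrArg φ h1
  replace h2 := congrArg φ h2
  simp only [Matrix.cons_val, map_add, map_sub, map_mul, map_neg, g1, g2, H.ρ3, e3, e4,
    map_zero] at h1 h2
  have hb := neg_pos.2 hβ
  have hc := neg_pos.2 hγ
  obtain ⟨n, hn'⟩ : ∃ n, n = normSq (φ (algebraMap L E q)) := ⟨_, rfl⟩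
  have hp : ∀ i, 0 < ![n, 1, -β * n, -β, -γ * n, -γ, -β * -γ, -β * -γ * n] i := fun i => by
    rw [← hn'] at hn
    fin_cases i <;> simp only [Matrix.cons_val, Fin.reduceFinMk, Fin.zero_eta, Fin.mk_one] <;>
      positivity
  refine pc_zero H fun i => (map_eq_zero ρ).1 ((map_eq_zero φ).1
    (z8 hp (x := fun i => φ (ρ (pc α v i))) ?_ i))
  apply ofReal_injective
  apply mul_left_cancel₀ hz'
  simp only [Fin.sum_univ_eight, Matrix.cons_val, hn']
  push_cast
  simp only [← mul_conj]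
  linear_combination -(starRingEnd ℂ) (φ (algebraMap L E q)) * h1 - h2

end two

/-- **Anisotropy.** -/
theorem aniI (v : OctL E a b c)
    (h : ∀ (m n : Fin 4) (s t : OctL E a b c), (s = v ∨ s = tri ρ v v) → (t = v ∨ t = tri ρ v v) →
      bil ((![id, Jm ρ σ α q, fun x => Jm ρ σ α q (Im ι x),
          fun x => Jm ρ σ α q (Im ι (Jm ρ σ α q (Im ι x)))] : Fin 4 → OctL E a b c → OctL E a b c) m s)
        ((![id, Jm ρ σ α q, fun x => Jm ρ σ α q (Im ι x),
          fun x => Jm ρ σ α q (Im ι (Jm ρ σ α q (Im ι x)))] : Fin 4 → OctL E a b c → OctL E a b c) n t)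
        = 0) : v = 0 := by
  obtain ⟨τ, t1, t2, t3, t4⟩ := H.cp
  have := τ.charZero
  obtain ⟨w, hw⟩ := E6I.exists_real_over (L := L) H.h3 τ
  have hfin := H.finiteL
  have halg : Algebra.IsAlgebraic L E := Algebra.IsAlgebraic.of_finite L E
  obtain ⟨W, hW⟩ := H68.exists_lift (E := E) w
  have hk : ∀ t : k, W (algebraMap k E t) = τ t := fun t => by
    rw [IsScalarTower.algebraMap_apply k L E, hW, ← hw]
    rfl
  have l := Or.inl (b := v = tri ρ v v) (rfl : v = v)
  have r := Or.inr (a := tri ρ v v = v) (rfl : tri ρ v v = tri ρ v v)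
  rcases H.conj_or (w := w) (by rw [← hw] at t1; exact t1) hW with hc | hc
  · have hr : NumberField.ComplexEmbedding.IsReal
        ((W.comp (ρ : E →+* E)).comp (algebraMap L E)) := by
      refine NumberField.ComplexEmbedding.isReal_iff.2 (RingHom.ext fun t => ?_)
      change (starRingEnd ℂ) (W (ρ (algebraMap L E t))) = W (ρ (algebraMap L E t))
      rw [← hc, H.σρL]
    refine case_J H hc (t4 w hw) (t4 hr.embedding (RingHom.ext fun t => ofReal_injective ?_)) t2 t3
      (hW _) (hr.coe_embedding_apply _).symm (hk _) (hk _) (h 0 1 v v l l)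
    change ((hr.embedding (algebraMap k L t) : ℝ) : ℂ) = _
    rw [hr.coe_embedding_apply, ← hk]
    change W (ρ (algebraMap L E (algebraMap k L t))) = _
    rw [← IsScalarTower.algebraMap_apply, ρ.commutes]
  · by_contra hv
    let φ : E →+* ℂ := (W.comp (ρ : E →+* E)).comp (ρ : E →+* E)
    have hφ : ∀ y, φ (σ (ι y)) = (starRingEnd ℂ) (φ y) := fun y => by
      change W (ρ (ρ (σ (ι y)))) = (starRingEnd ℂ) (W (ρ (ρ y)))
      rw [← hc, H.ιρ, H.ιρ, H.ρ3, H.comm, H.comm]
    have e2 : φ (ρ (algebraMap L E q)) = (w q : ℝ) := by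
      change W (ρ (ρ (ρ _))) = _
      rw [H.ρ3, hW]
    have e3 : ∀ t : k, φ (algebraMap k E t) = τ t := fun t => by
      change W (ρ (ρ _)) = _
      rw [ρ.commutes, ρ.commutes, hk]
    obtain ⟨μ, hμ⟩ := dep H hφ (t4 w hw) t2 t3 e2 (e3 _) (e3 _) hv (h 0 2 v v l l)
      (h 0 3 v v l l) (h 2 2 v v l l) (h 2 3 v v l l)
    obtain ⟨lam, hl⟩ := dep H hφ (t4 w hw) t2 t3 e2 (e3 _) (e3 _) hv (h 0 2 v v l l)
      (h 0 2 _ _ l r) (h 0 2 _ _ r l) (h 0 2 _ _ r r)
    have hn : Oct.norm v = 0 := by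
      have h1 : bil v v = 0 := h 0 0 v v l l
      rw [bil_self] at h1
      exact (mul_eq_zero.1 h1).resolve_left (NeZero.ne 2)
    have h2 := Orb.tri_tri H.ρ3 v v
    rw [hn, map_zero, map_zero, zero_smul] at h2
    nth_rewrite 1 [hl] at h2
    rw [tri_smul_left] at h2
    refine hv (tri_ne H hφ (t4 w hw) t2 t3 e2 (e3 _) (e3 _) ?_)
    rw [hμ, tri_smul_right]
    rcases smul_eq_zero.1 h2 with h3 | h3
    · rw [hl, (map_eq_zero ρ).1 h3, zero_smul, smul_zero]
    · rw [h3, smul_zero]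

end Vale.Agent.P011.NT
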