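import Vale.Agent.P011ND.Abs

/-!
The places of the field of rational numbers.
-/

namespace Vale.Agent.P011.NT

open Vale.Agent.P011ND

instance factP {M : ℕ} (p : M.primeFactors) : Fact p.1.Prime :=
  ⟨Nat.prime_of_mem_primeFactors p.2⟩

/-- The completions at infinity and at the primes dividing `M`. -/
def KK (M : ℕ) : Option M.primeFactors → Type
  | none => ℝ
  | some p => ℚ_[p.1]

noncomputable instance nnfK (M : ℕ) : ∀ i, NontriviallyNormedField (KK M i)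
  | none => inferInstanceAs (NontriviallyNormedField ℝ)
  | some p => inferInstanceAs (NontriviallyNormedField ℚ_[p.1])

instance properK (M : ℕ) : ∀ i, ProperSpace (KK M i)
  | none => inferInstanceAs (ProperSpace ℝ)
  | some p => inferInstanceAs (ProperSpace ℚ_[p.1])

instance charK (M : ℕ) : ∀ i, CharZero (KK M i)
  | none => inferInstanceAs (CharZero ℝ)
  | some p => inferInstanceAs (CharZero ℚ_[p.1])

/-- The rational numbers whose denominator divides a power of `M`. -/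
def OO (M : ℕ) : Subring ℚ where
  carrier := {x | ∃ n, x.den ∣ M ^ n}
  mul_mem' := by
    rintro x y ⟨n, hn⟩ ⟨m, hm⟩
    exact ⟨n + m, (Rat.mul_den_dvd x y).trans (pow_add M n m ▸ mul_dvd_mul hn hm)⟩
  one_mem' := ⟨0, by simp⟩
  add_mem' := by
    rintro x y ⟨n, hn⟩ ⟨m, hm⟩
    exact ⟨n + m, (Rat.add_den_dvd x y).trans (pow_add M n m ▸ mul_dvd_mul hn hm)⟩
  zero_mem' := ⟨0, by simp⟩
  neg_mem' := by
    rintro x ⟨n, hn⟩
    exact ⟨n, by simpa using hn⟩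

theorem norm_le_half {p : ℕ} [h : Fact p.Prime] {M : ℕ} (hM : p ∣ M) :
    ‖(M : ℚ_[p])‖ ≤ 1 / 2 := by
  obtain ⟨m, rfl⟩ := hM
  have h1 : ‖(m : ℚ_[p])‖ ≤ 1 := IsUltrametricDist.norm_natCast_le_one _ m
  have h2 : (2 : ℝ) ≤ p := by exact_mod_cast h.out.two_le
  rw [Nat.cast_mul, norm_mul, Padic.norm_p, one_div]
  exact (mul_le_of_le_one_right (by positivity) h1).trans (inv_anti₀ two_pos h2)

theorem not_dvd_den {p : ℕ} [h : Fact p.Prime] {y : ℚ} (hy : ‖(y : ℚ_[p])‖ ≤ 1) : ¬ p ∣ y.den := by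
  intro hd
  have h1 : ‖((y.den : ℤ) : ℚ_[p])‖ < 1 :=
    Padic.norm_intCast_lt_one_iff.2 (Int.natCast_dvd_natCast.2 hd)
  have h2 : ((y.num : ℤ) : ℚ_[p]) = (y : ℚ_[p]) * ((y.den : ℤ) : ℚ_[p]) := by
    have := congrArg (Rat.cast : ℚ → ℚ_[p]) (Rat.mul_den_eq_num y)
    push_cast at this ⊢
    exact this.symm
  have h3 : ‖((y.num : ℤ) : ℚ_[p])‖ < 1 := by
    rw [h2, norm_mul]
    exact mul_lt_one_of_nonneg_of_lt_one_right hy (norm_nonneg _) h1
  have h4 := Int.natCast_dvd.1 (Padic.norm_intCast_lt_one_iff.1 h3)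
  exact h.out.one_lt.ne' (Nat.eq_one_of_dvd_coprimes y.reduced h4 hd)

theorem exists_appr {p : ℕ} [h : Fact p.Prime] (r : ℚ_[p]) :
    ∃ (n : ℕ) (u : ℤ), ‖r - (((u : ℚ) / (p : ℚ) ^ n : ℚ) : ℚ_[p])‖ ≤ 1 := by
  have hp : (p : ℚ_[p]) ≠ 0 := Nat.cast_ne_zero.2 h.out.ne_zero
  obtain ⟨n, hn⟩ : ∃ n : ℕ, ‖(p : ℚ_[p]) ^ n * r‖ ≤ 1 := by
    obtain ⟨n, hn⟩ := exists_pow_lt_of_lt_one (show 0 < (‖r‖ + 1)⁻¹ by positivity)
      (Padic.norm_p_lt_one (p := p))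
    refine ⟨n, ?_⟩
    rw [norm_mul, norm_pow]
    rw [lt_inv_comm₀ (by positivity) (by positivity), lt_inv_comm₀ (by positivity) (by positivity),
      ← one_div, lt_div_iff₀ (by positivity)] at hn
    nlinarith [pow_pos (norm_pos_iff.2 hp) n]
  have h0 : 0 < ‖(p : ℚ_[p]) ^ n‖ := norm_pos_iff.2 (pow_ne_zero n hp)
  obtain ⟨z, hz⟩ : ∃ z : ℤ_[p], (z : ℚ_[p]) = (p : ℚ_[p]) ^ n * r := ⟨⟨_, hn⟩, rfl⟩
  obtain ⟨u, hu⟩ := Metric.denseRange_iff.1 PadicInt.denseRange_intCast z _ h0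
  refine ⟨n, u, ?_⟩
  have h1 : ‖(p : ℚ_[p]) ^ n * r - u‖ < ‖(p : ℚ_[p]) ^ n‖ := by
    rw [dist_eq_norm, PadicInt.norm_def] at hu
    simpa [hz] using hu
  have h2 : r - (((u : ℚ) / (p : ℚ) ^ n : ℚ) : ℚ_[p]) =
      ((p : ℚ_[p]) ^ n * r - u) / (p : ℚ_[p]) ^ n := by
    push_cast
    field_simp
  rw [h2, norm_div]
  exact ((div_lt_one h0).2 h1).le

theorem coc_OO {M : ℕ} (r : ∀ i, KK M i) : ∃ c ∈ OO M,
    ‖r - algebraMap ℚ (∀ i, KK M i) c‖ ≤ Fintype.card M.primeFactors + 1 := by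
  classical
  choose n u hu using fun p : M.primeFactors => exists_appr (p := p.1) (r (some p))
  obtain ⟨c0, hc0⟩ : ∃ c0 : ℚ, c0 = ∑ p : M.primeFactors, (u p : ℚ) / (p.1 : ℚ) ^ n p := ⟨_, rfl⟩
  obtain ⟨x, hx⟩ : ∃ x : ℝ, x = r none := ⟨_, rfl⟩
  refine ⟨c0 + ⌊x - c0⌋, add_mem (hc0 ▸ sum_mem fun p _ => ⟨n p, ?_⟩) (intCast_mem _ _), ?_⟩
  · have h1 := Rat.den_dvd (u p) ((p.1 : ℤ) ^ n p)
    rw [Rat.divInt_eq_div] at h1
    push_cast at h1
    exact (Int.natCast_dvd_natCast.1 (by exact_mod_cast h1)).trans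
      (pow_dvd_pow_of_dvd (Nat.dvd_of_mem_primeFactors p.2) _)
  · refine (pi_norm_le_iff_of_nonneg (by positivity)).2 fun i => ?_
    rcases i with _ | p
    · have e : (r - algebraMap ℚ (∀ i, KK M i) (c0 + ⌊x - c0⌋)) none =
          (x - ((c0 + ⌊x - c0⌋ : ℚ) : ℝ) : ℝ) := by
        nth_rewrite 2 [hx]
        rfl
      rw [e]
      change |x - ((c0 + ⌊x - c0⌋ : ℚ) : ℝ)| ≤ _
      push_cast
      have h1 := Int.fract_nonneg (x - c0)
      have h2 := Int.fract_lt_one (x - c0)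
      rw [Int.fract] at h1 h2
      rw [abs_le]
      constructor <;> linarith [(Nat.cast_nonneg (Fintype.card M.primeFactors) : (0 : ℝ) ≤ _)]
    · obtain ⟨y, hy⟩ : ∃ y : ℚ_[p.1], y = r (some p) := ⟨_, rfl⟩
      have e : (r - algebraMap ℚ (∀ i, KK M i) (c0 + ⌊x - c0⌋)) (some p) =
          (y - ((c0 + ⌊x - c0⌋ : ℚ) : ℚ_[p.1]) : ℚ_[p.1]) := by
        rw [hy]
        rfl
      rw [e]
      have h1 : ∀ p' : M.primeFactors, ‖(if p' = p then y else 0) -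
          (((u p' : ℚ) / (p'.1 : ℚ) ^ n p' : ℚ) : ℚ_[p.1])‖ ≤ 1 := by
        intro p'
        split_ifs with h
        · rw [h, hy]
          exact hu p
        · have h2 : ‖(p'.1 : ℚ_[p.1])‖ = 1 := Padic.norm_natCast_eq_one_iff.2
            ((Nat.coprime_primes (factP p).out (factP p').out).2 fun e => h (Subtype.ext e.symm))
          push_cast
          rw [zero_sub, norm_neg, norm_div, norm_pow, h2, one_pow, div_one]
          exact Padic.norm_int_le_one _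
      have h2 : y - (((c0 + ⌊x - c0⌋ : ℚ) : ℚ) : ℚ_[p.1]) = (∑ p', ((if p' = p then y else 0) -
          (((u p' : ℚ) / (p'.1 : ℚ) ^ n p' : ℚ) : ℚ_[p.1]))) - (⌊x - c0⌋ : ℤ) := by
        rw [Finset.sum_sub_distrib, Finset.sum_ite_eq', if_pos (Finset.mem_univ _),
          ← Rat.cast_sum, ← hc0]
        push_cast
        ring
      change ‖y - ((c0 + ⌊x - c0⌋ : ℚ) : ℚ_[p.1])‖ ≤ _
      rw [h2]
      refine (norm_sub_le _ _).trans (add_le_add ((norm_sum_le _ _).trans ?_)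
        (Padic.norm_int_le_one _))
      simpa using Finset.sum_le_card_nsmul _ _ _ fun p' (_ : p' ∈ Finset.univ) => h1 p'

theorem small {M : ℕ} (hM : M ≠ 0) {ε : ℝ} (hε : 0 < ε) :
    ∃ t : ℚ, t ≠ 0 ∧ ‖algebraMap ℚ (∀ i, KK M i) t‖ ≤ ε := by
  obtain ⟨n, hn⟩ := exists_pow_lt_of_lt_one hε (show (1 / 2 : ℝ) < 1 by norm_num)
  refine ⟨(2 * M) ^ n / ((2 * M) ^ (2 * n + 1) + 1), by positivity,
    (pi_norm_le_iff_of_nonneg hε.le).2 fun i => le_trans ?_ hn.le⟩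
  rcases i with _ | p
  · change ‖((((2 * M) ^ n / ((2 * M) ^ (2 * n + 1) + 1) : ℚ) : ℚ) : ℝ)‖ ≤ _
    have h1 : (1 : ℝ) ≤ M := by exact_mod_cast Nat.pos_of_ne_zero hM
    push_cast
    rw [Real.norm_of_nonneg (by positivity), div_le_iff₀ (by positivity), one_div, inv_pow,
      ← div_eq_inv_mul, le_div_iff₀ (by positivity)]
    have h2 : (2 : ℝ) ^ n ≤ (2 * M) ^ (n + 1) :=
      (pow_le_pow_left₀ (by norm_num) (by linarith) n).trans
        (pow_le_pow_right₀ (by linarith) n.le_succ)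
    calc (2 * M : ℝ) ^ n * 2 ^ n ≤ (2 * M) ^ n * (2 * M) ^ (n + 1) := by gcongr
      _ ≤ _ := by
        rw [← pow_add, show n + (n + 1) = 2 * n + 1 by ring]
        linarith
  · change ‖((((2 * M) ^ n / ((2 * M) ^ (2 * n + 1) + 1) : ℚ) : ℚ) : ℚ_[p.1])‖ ≤ _
    have hd : p.1 ∣ 2 * M := (Nat.dvd_of_mem_primeFactors p.2).mul_left 2
    have h1 := norm_le_half hd
    have h2 : ‖(((2 * M) ^ (2 * n + 1) + 1 : ℕ) : ℚ_[p.1])‖ = 1 :=
      Padic.norm_natCast_eq_one_iff.2 ((Nat.coprime_add_iff_right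
        (hd.trans (dvd_pow_self _ (Nat.succ_ne_zero _)))).2 (Nat.coprime_one_right _))
    push_cast at h1 h2 ⊢
    rw [norm_div, h2, div_one, norm_pow]
    gcongr

theorem pls_OO {M : ℕ} (hM : M ≠ 0) : Pls (KK M) (OO M) where
  ne := ⟨none⟩
  cnt := inferInstance
  disc b := by
    obtain ⟨N, hN⟩ := pow_unbounded_of_one_lt b (show (1 : ℝ) < 2 by norm_num)
    have hM' : (0 : ℚ) < (M : ℚ) ^ N := by positivity
    refine ((Set.finite_Icc (-⌈(M : ℝ) ^ N * b⌉) ⌈(M : ℝ) ^ N * b⌉).image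
      fun z : ℤ => (z : ℚ) / (M : ℚ) ^ N).subset ?_
    rintro c ⟨hc, hb⟩
    obtain ⟨n, hn⟩ : (M : ℚ) ^ N * c ∈ OO M := mul_mem (pow_mem (natCast_mem _ M) N) hc
    have hden : ((M : ℚ) ^ N * c).den = 1 := by
      by_contra h
      obtain ⟨p, hp, hd⟩ := Nat.exists_prime_and_dvd h
      have hpM : p ∣ M := hp.dvd_of_dvd_pow (hd.trans hn)
      obtain ⟨p', rfl⟩ : ∃ p' : M.primeFactors, p'.1 = p :=
        ⟨⟨p, Nat.mem_primeFactors.2 ⟨hp, hpM, hM⟩⟩, rfl⟩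
      refine not_dvd_den (p := p'.1) ?_ hd
      have h1 : ‖(c : ℚ_[p'.1])‖ ≤ b := (norm_le_pi_norm _ (some p')).trans hb
      have h2 := norm_le_half (p := p'.1) hpM
      push_cast
      rw [norm_mul, norm_pow]
      calc _ ≤ (1 / 2 : ℝ) ^ N * 2 ^ N := by
            gcongr
            exact h1.trans hN.le
        _ = 1 := by
            rw [← mul_pow]
            norm_num
    have h3 := (Rat.den_eq_one_iff _).1 hden
    refine ⟨((M : ℚ) ^ N * c).num, ?_, ?_⟩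
    · have h1 : |(c : ℝ)| ≤ b := (norm_le_pi_norm _ none).trans hb
      have h4 : ((((M : ℚ) ^ N * c).num : ℤ) : ℝ) = (M : ℝ) ^ N * c := by
        exact_mod_cast congrArg (Rat.cast : ℚ → ℝ) h3
      rw [Set.mem_Icc, ← abs_le]
      have h5 : ((|((M : ℚ) ^ N * c).num| : ℤ) : ℝ) ≤ (⌈(M : ℝ) ^ N * b⌉ : ℤ) := by
        rw [Int.cast_abs, h4, abs_mul, abs_of_nonneg (by positivity)]
        exact (mul_le_mul_of_nonneg_left h1 (by positivity)).trans (Int.le_ceil _)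
      exact_mod_cast h5
    · change (((M : ℚ) ^ N * c).num : ℚ) / _ = c
      rw [h3, mul_div_cancel_left₀ _ hM'.ne']
  coc := ⟨_, coc_OO⟩
  dense := by
    refine Metric.denseRange_iff.2 fun r ε hε => ?_
    have hb : (0 : ℝ) < Fintype.card M.primeFactors + 1 := by positivity
    obtain ⟨t, ht0, ht⟩ := small hM (show 0 < ε / 2 / (Fintype.card M.primeFactors + 1) by
      positivity)
    obtain ⟨c, -, hc⟩ := coc_OO (algebraMap ℚ (∀ i, KK M i) t⁻¹ * r)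
    refine ⟨t * c, ?_⟩
    have e : r - algebraMap ℚ (∀ i, KK M i) (t * c) = algebraMap ℚ (∀ i, KK M i) t *
        (algebraMap ℚ (∀ i, KK M i) t⁻¹ * r - algebraMap ℚ (∀ i, KK M i) c) := by
      rw [mul_sub, ← mul_assoc, ← map_mul, mul_inv_cancel₀ ht0, map_one, one_mul, map_mul]
    rw [dist_eq_norm, e]
    refine (norm_mul_le _ _).trans_lt (lt_of_le_of_lt
      (mul_le_mul ht hc (norm_nonneg _) (by positivity)) ?_)
    rw [div_mul_cancel₀ _ hb.ne']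
    linarith
  frac x := ⟨x.den, natCast_mem _ _, Nat.cast_ne_zero.2 x.den_ne_zero, by
    rw [mul_comm, Rat.mul_den_eq_num]
    exact intCast_mem _ _⟩

/-- **The places of the rational numbers.** -/
theorem hasPls_rat : HasPls ℚ := fun s hs =>
  ⟨_, inferInstance, KK (∏ c ∈ hs.toFinset, c.den), inferInstance, inferInstance, inferInstance, _,
    pls_OO (Finset.prod_ne_zero_iff.2 fun c _ => c.den_ne_zero), fun c hc =>
      ⟨1, by rw [pow_one]; exact Finset.dvd_prod_of_mem _ (hs.mem_toFinset.2 hc)⟩⟩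

end Vale.Agent.P011.NT
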